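import Vale.Agent.P146.U.AP3
import Vale.Agent.Results.P146.FluctOrder

/-!
# P146: the upper law of the exponential moments above the scale `n^(-1/6) (log n)^K`, from the
hand-in `FluctOrder`
-/

open MeasureTheory ProbabilityTheory Filter

namespace Vale.Agent.P146.U

open Vale.Agent.P146

/-- **The upper law of the exponential moments**, for every `β > 1`. -/
theorem cgfU {β : ℝ} (hβ : 1 < β) : CgfU β := by
  obtain ⟨⟨C, c, hC, -, h, -⟩, -⟩ := Vale.Agent.Results.P146.FluctOrder.result β hβ
  refine cgfU_of hC ?_
  filter_upwards [h] with n hn x hx hx1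
  exact (hn.2.2.2.2.2.1 x hx hx1).2

end Vale.Agent.P146.U
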