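import Mathlib

/-!
# Two derivatives of nested logarithms of exponential integrals

`GG p μ F t = (1/p) log ∫ exp (p F t w) dμ`. If `F` is twice differentiable in `t` with exponential
bounds in `w`, then so is `GG p μ F`, with the first derivative the tilted mean of `F₁` and the
second derivative the tilted mean of `F₂ + p F₁²` minus `p` times the square of the first.
The bounds are of the same type in the outer variable, so the statement can be iterated.
-/

open MeasureTheory ProbabilityTheory Filter Topology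

namespace Vale.Agent.P146.H622

set_option linter.unusedSectionVars false

variable {Ω Κ : Type*} [MeasurableSpace Ω] [MeasurableSpace Κ]

/-- the exponent functional -/
noncomputable def Gp (p : ℝ) (μ : Measure Ω) (F : Ω → ℝ) : ℝ :=
  1 / p * Real.log (∫ w, Real.exp (p * F w) ∂μ)

/-- the tilted mean -/
noncomputable def Mp (p : ℝ) (μ : Measure Ω) (F ψ : Ω → ℝ) : ℝ :=
  (∫ w, Real.exp (p * F w) * ψ w ∂μ) / ∫ w, Real.exp (p * F w) ∂μ

lemma Mp_apply (p : ℝ) (μ : Measure Ω) (F ψ : Ω → ℝ) : Mp p μ F ψ =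
    (∫ w, Real.exp (p * F w) * ψ w ∂μ) / ∫ w, Real.exp (p * F w) ∂μ := rfl

/-- nonnegative function with all exponential moments -/
structure EM (μ : Measure Ω) (b : Ω → ℝ) : Prop where
  meas : Measurable b
  nn : ∀ w, 0 ≤ b w
  int : ∀ c : ℝ, Integrable (fun w => Real.exp (c * b w)) μ

lemma EM.const_mul {μ : Measure Ω} {b : Ω → ℝ} (h : EM μ b) {C : ℝ} (hC : 0 ≤ C) :
    EM μ fun w => C * b w :=
  ⟨h.meas.const_mul C, fun w => mul_nonneg hC (h.nn w), fun c => by
    have := h.int (c * C)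
    simpa only [mul_assoc] using this⟩

/-- a family which is twice differentiable on `U`, with exponential bounds -/
structure Fam (U : Set ℝ) (a : ℝ) (b : Ω → ℝ) (F F1 F2 : ℝ → Ω → ℝ) : Prop where
  m0 : ∀ t, Measurable (F t)
  m1 : ∀ t, Measurable (F1 t)
  m2 : ∀ t, Measurable (F2 t)
  d1 : ∀ t ∈ U, ∀ w, HasDerivAt (fun s => F s w) (F1 t w) t
  d2 : ∀ t ∈ U, ∀ w, HasDerivAt (fun s => F1 s w) (F2 t w) t
  b0 : ∀ t ∈ U, ∀ w, |F t w| ≤ a + b w
  b1 : ∀ t ∈ U, ∀ w, |F1 t w| ≤ Real.exp (a + b w)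
  b2 : ∀ t ∈ U, ∀ w, |F2 t w| ≤ Real.exp (a + b w)

section one

variable {μ : Measure Ω} [IsProbabilityMeasure μ] {U : Set ℝ} {a p t : ℝ} {b : Ω → ℝ}
  {F F1 F2 : ℝ → Ω → ℝ}

lemma EM.int' (h : EM μ b) (c a : ℝ) : Integrable (fun w => Real.exp (c * (a + b w))) μ := by
  have := (h.int c).const_mul (Real.exp (c * a))
  refine this.congr (Eventually.of_forall fun w => ?_)
  simp only
  rw [← Real.exp_add]
  congr 1
  ring

lemma EM.int_eq (c a : ℝ) : ∫ w, Real.exp (c * (a + b w)) ∂μ =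
    Real.exp (c * a) * ∫ w, Real.exp (c * b w) ∂μ := by
  rw [← integral_const_mul]
  refine integral_congr_ae (Eventually.of_forall fun w => ?_)
  simp only
  rw [← Real.exp_add]
  congr 1
  ring

lemma EM.pos (h : EM μ b) (c : ℝ) : 0 < ∫ w, Real.exp (c * b w) ∂μ :=
  integral_exp_pos (h.int c)

lemma EM.one_le (h : EM μ b) {c : ℝ} (hc : 0 ≤ c) : 1 ≤ ∫ w, Real.exp (c * b w) ∂μ := by
  have h1 : ∫ _ : Ω, (1 : ℝ) ∂μ ≤ ∫ w, Real.exp (c * b w) ∂μ :=
    integral_mono (integrable_const _) (h.int c) fun w =>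
      Real.one_le_exp (mul_nonneg hc (h.nn w))
  simpa using h1

lemma EM.le_one (h : EM μ b) {c : ℝ} (hc : 0 ≤ c) : ∫ w, Real.exp (-c * b w) ∂μ ≤ 1 := by
  have h1 : ∫ w, Real.exp (-c * b w) ∂μ ≤ ∫ _ : Ω, (1 : ℝ) ∂μ :=
    integral_mono (h.int (-c)) (integrable_const _) fun w => by
      refine Real.exp_le_one_iff.2 ?_
      have := mul_nonneg hc (h.nn w)
      linarith
  simpa using h1

/-- bound of the exponential weight -/
lemma Fam.exp_le (hF : Fam U a b F F1 F2) (ht : t ∈ U) (p : ℝ) (w : Ω) :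
    Real.exp (p * F t w) ≤ Real.exp (|p| * (a + b w)) := by
  refine Real.exp_le_exp.2 ((le_abs_self _).trans ?_)
  rw [abs_mul]
  exact mul_le_mul_of_nonneg_left (hF.b0 t ht w) (abs_nonneg p)

lemma Fam.le_exp (hF : Fam U a b F F1 F2) (ht : t ∈ U) (p : ℝ) (w : Ω) :
    Real.exp (-|p| * (a + b w)) ≤ Real.exp (p * F t w) := by
  refine Real.exp_le_exp.2 ?_
  have h1 : |p * F t w| ≤ |p| * (a + b w) := by
    rw [abs_mul]
    exact mul_le_mul_of_nonneg_left (hF.b0 t ht w) (abs_nonneg p)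
  have := (abs_le.1 h1).1
  linarith

lemma Fam.int0 (hF : Fam U a b F F1 F2) (hb : EM μ b) (ht : t ∈ U) (p : ℝ) :
    Integrable (fun w => Real.exp (p * F t w)) μ :=
  (hb.int' |p| a).mono' (((hF.m0 t).const_mul p).exp.aestronglyMeasurable)
    (Eventually.of_forall fun w => by
      rw [Real.norm_of_nonneg (Real.exp_pos _).le]
      exact hF.exp_le ht p w)

lemma Fam.int1 (hF : Fam U a b F F1 F2) (hb : EM μ b) (ht : t ∈ U) (p : ℝ) :
    Integrable (fun w => Real.exp (p * F t w) * F1 t w) μ :=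
  (hb.int' (|p| + 1) a).mono'
    ((((hF.m0 t).const_mul p).exp.mul (hF.m1 t)).aestronglyMeasurable)
    (Eventually.of_forall fun w => by
      rw [norm_mul, Real.norm_of_nonneg (Real.exp_pos _).le, Real.norm_eq_abs, add_mul, one_mul,
        Real.exp_add]
      exact mul_le_mul (hF.exp_le ht p w) (hF.b1 t ht w) (abs_nonneg _) (Real.exp_pos _).le)

lemma Fam.bd2 (hF : Fam U a b F F1 F2) (ha : 0 ≤ a) (hb : EM μ b) (ht : t ∈ U) (p : ℝ) (w : Ω) :
    |Real.exp (p * F t w) * (F2 t w + p * F1 t w ^ 2)| ≤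
      (|p| + 1) * Real.exp ((|p| + 2) * (a + b w)) := by
  have hab : 0 ≤ a + b w := add_nonneg ha (hb.nn w)
  rw [abs_mul, abs_of_pos (Real.exp_pos _)]
  have h1 : |F2 t w + p * F1 t w ^ 2| ≤ (|p| + 1) * Real.exp (2 * (a + b w)) := by
    have e1 : |F2 t w| ≤ Real.exp (2 * (a + b w)) :=
      (hF.b2 t ht w).trans (Real.exp_le_exp.2 (by linarith))
    have e2 : |F1 t w ^ 2| ≤ Real.exp (2 * (a + b w)) := by
      rw [abs_pow]
      calc |F1 t w| ^ 2 ≤ Real.exp (a + b w) ^ 2 :=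
            pow_le_pow_left₀ (abs_nonneg _) (hF.b1 t ht w) 2
        _ = Real.exp (2 * (a + b w)) := by
            rw [← Real.exp_nat_mul]
            norm_num
    calc |F2 t w + p * F1 t w ^ 2| ≤ |F2 t w| + |p| * |F1 t w ^ 2| := by
          rw [← abs_mul]
          exact abs_add_le _ _
      _ ≤ Real.exp (2 * (a + b w)) + |p| * Real.exp (2 * (a + b w)) :=
          add_le_add e1 (mul_le_mul_of_nonneg_left e2 (abs_nonneg p))
      _ = _ := by ring
  calc Real.exp (p * F t w) * |F2 t w + p * F1 t w ^ 2| ≤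
        Real.exp (|p| * (a + b w)) * ((|p| + 1) * Real.exp (2 * (a + b w))) :=
        mul_le_mul (hF.exp_le ht p w) h1 (abs_nonneg _) (Real.exp_pos _).le
    _ = _ := by
        rw [show (|p| + 2) * (a + b w) = |p| * (a + b w) + 2 * (a + b w) by ring, Real.exp_add]
        ring

lemma Fam.int2 (hF : Fam U a b F F1 F2) (ha : 0 ≤ a) (hb : EM μ b) (ht : t ∈ U) (p : ℝ) :
    Integrable (fun w => Real.exp (p * F t w) * (F2 t w + p * F1 t w ^ 2)) μ :=
  ((hb.int' (|p| + 2) a).const_mul (|p| + 1)).mono'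
    ((((hF.m0 t).const_mul p).exp.mul ((hF.m2 t).add
      (((hF.m1 t).pow_const 2).const_mul p))).aestronglyMeasurable)
    (Eventually.of_forall fun w => by
      rw [Real.norm_eq_abs]
      exact hF.bd2 ha hb ht p w)

lemma Fam.deriv0 (hF : Fam U a b F F1 F2) (hb : EM μ b) (hU : IsOpen U) (ht : t ∈ U)
    (p : ℝ) : HasDerivAt (fun s => ∫ w, Real.exp (p * F s w) ∂μ)
      (p * ∫ w, Real.exp (p * F t w) * F1 t w ∂μ) t := by
  have h := hasDerivAt_integral_of_dominated_loc_of_deriv_le (μ := μ)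
    (F := fun s w => Real.exp (p * F s w)) (F' := fun s w => p * (Real.exp (p * F s w) * F1 s w))
    (bound := fun w => |p| * Real.exp ((|p| + 1) * (a + b w))) (x₀ := t) (hU.mem_nhds ht)
    (Eventually.of_forall fun s => ((hF.m0 s).const_mul p).exp.aestronglyMeasurable)
    (hF.int0 hb ht p)
    ((((hF.m0 t).const_mul p).exp.mul (hF.m1 t)).const_mul p).aestronglyMeasurable
    (Eventually.of_forall fun w s hs => by
      rw [norm_mul, norm_mul, Real.norm_of_nonneg (Real.exp_pos _).le, Real.norm_eq_abs,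
        Real.norm_eq_abs, add_mul, one_mul, Real.exp_add]
      exact mul_le_mul_of_nonneg_left (mul_le_mul (hF.exp_le hs p w) (hF.b1 s hs w)
        (abs_nonneg _) (Real.exp_pos _).le) (abs_nonneg _))
    ((hb.int' (|p| + 1) a).const_mul _)
    (Eventually.of_forall fun w s hs => by
      have h1 := ((hF.d1 s hs w).const_mul p).exp
      refine h1.congr_deriv ?_
      ring)
  have h2 := h.2
  rw [integral_const_mul] at h2
  exact h2

lemma Fam.deriv1 (hF : Fam U a b F F1 F2) (ha : 0 ≤ a) (hb : EM μ b) (hU : IsOpen U)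
    (ht : t ∈ U) (p : ℝ) : HasDerivAt (fun s => ∫ w, Real.exp (p * F s w) * F1 s w ∂μ)
      (∫ w, Real.exp (p * F t w) * (F2 t w + p * F1 t w ^ 2) ∂μ) t := by
  have h := hasDerivAt_integral_of_dominated_loc_of_deriv_le (μ := μ)
    (F := fun s w => Real.exp (p * F s w) * F1 s w)
    (F' := fun s w => Real.exp (p * F s w) * (F2 s w + p * F1 s w ^ 2))
    (bound := fun w => (|p| + 1) * Real.exp ((|p| + 2) * (a + b w))) (x₀ := t) (hU.mem_nhds ht)
    (Eventually.of_forall fun s =>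
      (((hF.m0 s).const_mul p).exp.mul (hF.m1 s)).aestronglyMeasurable)
    (hF.int1 hb ht p)
    (((hF.m0 t).const_mul p).exp.mul ((hF.m2 t).add
      (((hF.m1 t).pow_const 2).const_mul p))).aestronglyMeasurable
    (Eventually.of_forall fun w s hs => by
      rw [Real.norm_eq_abs]
      exact hF.bd2 ha hb hs p w)
    ((hb.int' (|p| + 2) a).const_mul _)
    (Eventually.of_forall fun w s hs => by
      have h1 := (((hF.d1 s hs w).const_mul p).exp).mul (hF.d2 s hs w)
      refine h1.congr_deriv ?_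
      ring)
  exact h.2

/-- **The first derivative.** -/
theorem Fam.dG (hF : Fam U a b F F1 F2) (hb : EM μ b) (hU : IsOpen U) (ht : t ∈ U)
    (hp : p ≠ 0) : HasDerivAt (fun s => Gp p μ (F s)) (Mp p μ (F t) (F1 t)) t := by
  have hpos : 0 < ∫ w, Real.exp (p * F t w) ∂μ := integral_exp_pos (hF.int0 hb ht p)
  have h := ((hF.deriv0 hb hU ht p).log hpos.ne').const_mul (1 / p)
  refine h.congr_deriv ?_
  unfold Mp
  field_simp

/-- **The second derivative.** -/
theorem Fam.dG1 (hF : Fam U a b F F1 F2) (ha : 0 ≤ a) (hb : EM μ b) (hU : IsOpen U)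
    (ht : t ∈ U) : HasDerivAt (fun s => Mp p μ (F s) (F1 s))
      (Mp p μ (F t) (fun w => F2 t w + p * F1 t w ^ 2) - p * Mp p μ (F t) (F1 t) ^ 2) t := by
  have hpos : 0 < ∫ w, Real.exp (p * F t w) ∂μ := integral_exp_pos (hF.int0 hb ht p)
  have h := (hF.deriv1 ha hb hU ht p).div (hF.deriv0 hb hU ht p) hpos.ne'
  refine h.congr_deriv ?_
  unfold Mp
  field_simp

/-- **The bounds of the exponent functional and of its two derivatives.** -/
theorem Fam.bounds (μ : Measure Ω) [IsProbabilityMeasure μ] {b : Ω → ℝ} (hb : EM μ b) {p : ℝ}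
    (hp : p ≠ 0) : ∃ C : ℝ, 0 ≤ C ∧ ∀ (U : Set ℝ) (a : ℝ) (F F1 F2 : ℝ → Ω → ℝ), 0 ≤ a →
      Fam U a b F F1 F2 → ∀ t ∈ U, |Gp p μ (F t)| ≤ C * (1 + a) ∧
        |Mp p μ (F t) (F1 t)| ≤ Real.exp (C * (1 + a)) ∧
        |Mp p μ (F t) (fun w => F2 t w + p * F1 t w ^ 2) - p * Mp p μ (F t) (F1 t) ^ 2| ≤
          Real.exp (C * (1 + a)) := by
  obtain ⟨c, hc⟩ : ∃ c, c = |p| := ⟨_, rfl⟩
  have hc0 : 0 < c := by rw [hc]; exact abs_pos.2 hp
  obtain ⟨M, hM⟩ : ∃ M, M = ∫ w, Real.exp ((c + 2) * b w) ∂μ := ⟨_, rfl⟩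
  obtain ⟨m, hm⟩ : ∃ m, m = ∫ w, Real.exp (-c * b w) ∂μ := ⟨_, rfl⟩
  have hM1 : 1 ≤ M := by rw [hM]; exact hb.one_le (by linarith)
  have hM0 : 0 < M := by linarith
  have hm0 : 0 < m := by rw [hm]; exact hb.pos _
  have hm1 : m ≤ 1 := by rw [hm]; exact hb.le_one hc0.le
  have hMc : ∀ d : ℝ, d ≤ c + 2 → ∫ w, Real.exp (d * b w) ∂μ ≤ M := fun d hd => by
    rw [hM]
    exact integral_mono (hb.int d) (hb.int _) fun w =>
      Real.exp_le_exp.2 (mul_le_mul_of_nonneg_right hd (hb.nn w))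
  obtain ⟨R, hR⟩ : ∃ R, R = Real.log M - Real.log m := ⟨_, rfl⟩
  have hlM : 0 ≤ Real.log M := Real.log_nonneg hM1
  have hlm : Real.log m ≤ 0 := Real.log_nonpos hm0.le hm1
  have hR0 : 0 ≤ R := by rw [hR]; linarith
  have hRe : Real.exp R = M / m := by
    rw [hR, Real.exp_sub, Real.exp_log hM0, Real.exp_log hm0]
  refine ⟨1 + R / c + (4 * c + 2) + (2 * c + 1) + 2 * R, by positivity, ?_⟩
  intro U a F F1 F2 ha hF t ht
  obtain ⟨I0, hI0⟩ : ∃ I, I = ∫ w, Real.exp (p * F t w) ∂μ := ⟨_, rfl⟩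
  have hI0p : 0 < I0 := by rw [hI0]; exact integral_exp_pos (hF.int0 hb ht p)
  have hI0u : I0 ≤ Real.exp (c * a) * M := by
    rw [hI0]
    refine (integral_mono (hF.int0 hb ht p) (hb.int' |p| a) (hF.exp_le ht p)).trans ?_
    rw [EM.int_eq, ← hc]
    exact mul_le_mul_of_nonneg_left (hMc c (by linarith)) (Real.exp_pos _).le
  have hI0l : Real.exp (-c * a) * m ≤ I0 := by
    rw [hI0]
    refine le_trans (le_of_eq ?_) (integral_mono (hb.int' (-|p|) a) (hF.int0 hb ht p)
      (hF.le_exp ht p))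
    rw [EM.int_eq, ← hc, hm]
  -- the three bounds
  have hlog : |Real.log I0| ≤ c * a + R := by
    rw [abs_le]
    constructor
    · have h1 := Real.log_le_log (by positivity) hI0l
      rw [Real.log_mul (Real.exp_pos _).ne' hm0.ne', Real.log_exp] at h1
      rw [hR]
      linarith
    · have h1 := Real.log_le_log hI0p hI0u
      rw [Real.log_mul (Real.exp_pos _).ne' hM0.ne', Real.log_exp] at h1
      rw [hR]
      linarith
  have hinv : 1 / I0 ≤ Real.exp (c * a) / m := by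
    rw [div_le_div_iff₀ hI0p hm0, one_mul]
    have e : Real.exp (c * a) * Real.exp (-c * a) = 1 := by
      rw [← Real.exp_add]
      simp
    calc m = Real.exp (c * a) * (Real.exp (-c * a) * m) := by rw [← mul_assoc, e, one_mul]
      _ ≤ Real.exp (c * a) * I0 := mul_le_mul_of_nonneg_left hI0l (Real.exp_pos _).le
  have g1 : |Mp p μ (F t) (F1 t)| ≤ Real.exp ((2 * c + 1) * a + R) := by
    unfold Mp
    rw [← hI0, abs_div, abs_of_pos hI0p]
    have h1 : |∫ w, Real.exp (p * F t w) * F1 t w ∂μ| ≤ Real.exp ((c + 1) * a) * M := by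
      refine (abs_integral_le_integral_abs).trans ?_
      refine (integral_mono (hF.int1 hb ht p).abs (hb.int' (|p| + 1) a) fun w => ?_).trans ?_
      · simp only
        rw [abs_mul, abs_of_pos (Real.exp_pos _), add_mul, one_mul, Real.exp_add]
        exact mul_le_mul (hF.exp_le ht p w) (hF.b1 t ht w) (abs_nonneg _) (Real.exp_pos _).le
      · rw [EM.int_eq, ← hc]
        exact mul_le_mul_of_nonneg_left (hMc _ (by linarith)) (Real.exp_pos _).le
    calc |∫ w, Real.exp (p * F t w) * F1 t w ∂μ| / I0 =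
          |∫ w, Real.exp (p * F t w) * F1 t w ∂μ| * (1 / I0) := by ring
      _ ≤ (Real.exp ((c + 1) * a) * M) * (Real.exp (c * a) / m) :=
          mul_le_mul h1 hinv (by positivity) (by positivity)
      _ = Real.exp ((2 * c + 1) * a + R) := by
          rw [Real.exp_add, hRe, show (2 * c + 1) * a = (c + 1) * a + c * a by ring, Real.exp_add]
          ring
  have g2 : |Mp p μ (F t) (fun w => F2 t w + p * F1 t w ^ 2)| ≤
      (c + 1) * Real.exp ((2 * c + 2) * a + R) := by
    unfold Mp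
    rw [← hI0, abs_div, abs_of_pos hI0p]
    have h1 : |∫ w, Real.exp (p * F t w) * (F2 t w + p * F1 t w ^ 2) ∂μ| ≤
        (c + 1) * (Real.exp ((c + 2) * a) * M) := by
      refine (abs_integral_le_integral_abs).trans ?_
      refine (integral_mono (hF.int2 ha hb ht p).abs
        ((hb.int' (|p| + 2) a).const_mul (|p| + 1)) fun w => hF.bd2 ha hb ht p w).trans ?_
      rw [integral_const_mul, EM.int_eq, ← hc]
      exact mul_le_mul_of_nonneg_left (mul_le_mul_of_nonneg_left (hMc _ le_rfl)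
        (Real.exp_pos _).le) (by linarith)
    calc |∫ w, Real.exp (p * F t w) * (F2 t w + p * F1 t w ^ 2) ∂μ| / I0 =
          |∫ w, Real.exp (p * F t w) * (F2 t w + p * F1 t w ^ 2) ∂μ| * (1 / I0) := by ring
      _ ≤ ((c + 1) * (Real.exp ((c + 2) * a) * M)) * (Real.exp (c * a) / m) :=
          mul_le_mul h1 hinv (by positivity) (by positivity)
      _ = (c + 1) * Real.exp ((2 * c + 2) * a + R) := by
          rw [Real.exp_add, hRe, show (2 * c + 2) * a = (c + 2) * a + c * a by ring, Real.exp_add]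
          ring
  have hRc : 0 ≤ R / c := by positivity
  have hca : 0 ≤ c * a := by positivity
  refine ⟨?_, ?_, ?_⟩
  · unfold Gp
    rw [← hI0, abs_mul, abs_div, abs_one, ← hc]
    calc 1 / c * |Real.log I0| ≤ 1 / c * (c * a + R) :=
          mul_le_mul_of_nonneg_left hlog (by positivity)
      _ = a + R / c := by field_simp
      _ ≤ _ := by nlinarith
  · refine g1.trans (Real.exp_le_exp.2 ?_)
    nlinarith [mul_nonneg hRc ha, mul_nonneg hR0 ha]
  · have h3 : (2 * c + 1) ≤ Real.exp (2 * c) := Real.add_one_le_exp _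
    have h4 : |Mp p μ (F t) (F1 t)| ^ 2 ≤ Real.exp ((4 * c + 2) * a + 2 * R) := by
      calc |Mp p μ (F t) (F1 t)| ^ 2 ≤ Real.exp ((2 * c + 1) * a + R) ^ 2 :=
            pow_le_pow_left₀ (abs_nonneg _) g1 2
        _ = _ := by
            rw [← Real.exp_nat_mul]
            congr 1
            push_cast
            ring
    have h5 : Real.exp ((2 * c + 2) * a + R) ≤ Real.exp ((4 * c + 2) * a + 2 * R) :=
      Real.exp_le_exp.2 (by nlinarith)
    calc |Mp p μ (F t) (fun w => F2 t w + p * F1 t w ^ 2) - p * Mp p μ (F t) (F1 t) ^ 2| ≤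
          |Mp p μ (F t) (fun w => F2 t w + p * F1 t w ^ 2)| + |p * Mp p μ (F t) (F1 t) ^ 2| :=
          abs_sub _ _
      _ ≤ (c + 1) * Real.exp ((2 * c + 2) * a + R) + c * Real.exp ((4 * c + 2) * a + 2 * R) := by
          refine add_le_add g2 ?_
          rw [abs_mul, abs_pow, ← hc]
          exact mul_le_mul_of_nonneg_left h4 hc0.le
      _ ≤ (2 * c + 1) * Real.exp ((4 * c + 2) * a + 2 * R) := by nlinarith [Real.exp_pos ((4 * c + 2) * a + 2 * R)]
      _ ≤ Real.exp (2 * c) * Real.exp ((4 * c + 2) * a + 2 * R) :=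
          mul_le_mul_of_nonneg_right h3 (Real.exp_pos _).le
      _ = Real.exp (2 * c + ((4 * c + 2) * a + 2 * R)) := (Real.exp_add _ _).symm
      _ ≤ _ := Real.exp_le_exp.2 (by nlinarith [mul_nonneg hRc ha, mul_nonneg hR0 ha])

end one

/-! ### the outer variable -/

section two

/-- a family with an outer variable `k` and an inner variable `w` -/
structure Fam2 (U : Set ℝ) (a : ℝ) (β : Κ → ℝ) (b : Ω → ℝ) (F F1 F2 : ℝ → Κ → Ω → ℝ) : Prop where
  m0 : ∀ t, Measurable fun q : Κ × Ω => F t q.1 q.2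
  m1 : ∀ t, Measurable fun q : Κ × Ω => F1 t q.1 q.2
  m2 : ∀ t, Measurable fun q : Κ × Ω => F2 t q.1 q.2
  d1 : ∀ t ∈ U, ∀ k w, HasDerivAt (fun s => F s k w) (F1 t k w) t
  d2 : ∀ t ∈ U, ∀ k w, HasDerivAt (fun s => F1 s k w) (F2 t k w) t
  b0 : ∀ t ∈ U, ∀ k w, |F t k w| ≤ a + β k + b w
  b1 : ∀ t ∈ U, ∀ k w, |F1 t k w| ≤ Real.exp (a + β k + b w)
  b2 : ∀ t ∈ U, ∀ k w, |F2 t k w| ≤ Real.exp (a + β k + b w)

variable {μ : Measure Ω} [IsProbabilityMeasure μ] {ν : Measure Κ} [IsProbabilityMeasure ν]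
  {U : Set ℝ} {a p t : ℝ} {b : Ω → ℝ} {β : Κ → ℝ} {F F1 F2 : ℝ → Κ → Ω → ℝ}

lemma Fam2.fam (h : Fam2 U a β b F F1 F2) (k : Κ) :
    Fam U (a + β k) b (fun t => F t k) (fun t => F1 t k) (fun t => F2 t k) where
  m0 := fun t => (h.m0 t).comp measurable_prodMk_left
  m1 := fun t => (h.m1 t).comp measurable_prodMk_left
  m2 := fun t => (h.m2 t).comp measurable_prodMk_left
  d1 := fun t ht w => h.d1 t ht k w
  d2 := fun t ht w => h.d2 t ht k w
  b0 := fun t ht w => h.b0 t ht k w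
  b1 := fun t ht w => h.b1 t ht k w
  b2 := fun t ht w => h.b2 t ht k w

lemma meas_int (μ : Measure Ω) [IsProbabilityMeasure μ] {f : Κ → Ω → ℝ}
    (hf : Measurable fun q : Κ × Ω => f q.1 q.2) : Measurable fun k => ∫ w, f k w ∂μ :=
  (StronglyMeasurable.integral_prod_right' (ν := μ) (f := fun q : Κ × Ω => f q.1 q.2)
    hf.stronglyMeasurable).measurable

/-- the functional of the inner variable -/
noncomputable def G0 (p : ℝ) (μ : Measure Ω) (F : ℝ → Κ → Ω → ℝ) (t : ℝ) (k : Κ) : ℝ :=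
  Gp p μ (F t k)

/-- its first derivative -/
noncomputable def G1 (p : ℝ) (μ : Measure Ω) (F F1 : ℝ → Κ → Ω → ℝ) (t : ℝ) (k : Κ) : ℝ :=
  Mp p μ (F t k) (F1 t k)

/-- its second derivative -/
noncomputable def G2 (p : ℝ) (μ : Measure Ω) (F F1 F2 : ℝ → Κ → Ω → ℝ) (t : ℝ) (k : Κ) : ℝ :=
  Mp p μ (F t k) (fun w => F2 t k w + p * F1 t k w ^ 2) - p * Mp p μ (F t k) (F1 t k) ^ 2

lemma meas_Gp {f : Κ → Ω → ℝ} (hf : Measurable fun q : Κ × Ω => f q.1 q.2) (p : ℝ) :
    Measurable fun k => Gp p μ (f k) :=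
  (Real.measurable_log.comp (meas_int μ (f := fun k w => Real.exp (p * f k w))
    (hf.const_mul p).exp)).const_mul _

lemma meas_Mp {f g : Κ → Ω → ℝ} (hf : Measurable fun q : Κ × Ω => f q.1 q.2)
    (hg : Measurable fun q : Κ × Ω => g q.1 q.2) (p : ℝ) :
    Measurable fun k => Mp p μ (f k) (g k) :=
  (meas_int μ (f := fun k w => Real.exp (p * f k w) * g k w) ((hf.const_mul p).exp.mul hg)).div
    (meas_int μ (f := fun k w => Real.exp (p * f k w)) (hf.const_mul p).exp)

/-- **The functional of the inner variable is again a family with exponential bounds.** -/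
theorem Fam2.outer (μ : Measure Ω) [IsProbabilityMeasure μ] {b : Ω → ℝ} (hb : EM μ b) {p : ℝ}
    (hp : p ≠ 0) : ∃ C : ℝ, 0 ≤ C ∧ ∀ (U : Set ℝ) (a : ℝ) (β : Κ → ℝ)
      (F F1 F2 : ℝ → Κ → Ω → ℝ), 0 ≤ a → (∀ k, 0 ≤ β k) → IsOpen U →
      Fam2 U a β b F F1 F2 →
      Fam U (C * (1 + a)) (fun k => C * β k) (G0 p μ F) (G1 p μ F F1) (G2 p μ F F1 F2) := by
  obtain ⟨C, hC, h⟩ := Fam.bounds μ hb hp
  refine ⟨C, hC, fun U a β F F1 F2 ha hβ hU hF => ?_⟩
  have hk : ∀ k, 0 ≤ a + β k := fun k => add_nonneg ha (hβ k)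
  have e : ∀ k, C * (1 + (a + β k)) = C * (1 + a) + C * β k := fun k => by ring
  exact
    { m0 := fun t => meas_Gp (hF.m0 t) p
      m1 := fun t => meas_Mp (hF.m0 t) (hF.m1 t) p
      m2 := fun t => (meas_Mp (g := fun k w => F2 t k w + p * F1 t k w ^ 2) (hF.m0 t)
        ((hF.m2 t).add (((hF.m1 t).pow_const 2).const_mul p)) p).sub
        (((meas_Mp (hF.m0 t) (hF.m1 t) p).pow_const 2).const_mul p)
      d1 := fun t ht k => (hF.fam k).dG hb hU ht hp
      d2 := fun t ht k => (hF.fam k).dG1 (hk k) hb hU ht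
      b0 := fun t ht k => by rw [← e]; exact (h U _ _ _ _ (hk k) (hF.fam k) t ht).1
      b1 := fun t ht k => by rw [← e]; exact (h U _ _ _ _ (hk k) (hF.fam k) t ht).2.1
      b2 := fun t ht k => by rw [← e]; exact (h U _ _ _ _ (hk k) (hF.fam k) t ht).2.2 }

/-- the two-level functional -/
noncomputable def Ph (y u : ℝ) (ν : Measure Κ) (μ : Measure Ω) (F : ℝ → Κ → Ω → ℝ) (t : ℝ) : ℝ :=
  Gp y ν (G0 u μ F t)

/-- the two-level mean of a function of the inner leaf -/
noncomputable def M2 (y u : ℝ) (ν : Measure Κ) (μ : Measure Ω) (F ψ : Κ → Ω → ℝ) : ℝ :=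
  Mp y ν (fun k => Gp u μ (F k)) fun k => Mp u μ (F k) (ψ k)

/-- the two-level mean of a product over two leaves with the same outer variable -/
noncomputable def M22 (y u : ℝ) (ν : Measure Κ) (μ : Measure Ω) (F ψ φ : Κ → Ω → ℝ) : ℝ :=
  Mp y ν (fun k => Gp u μ (F k)) fun k => Mp u μ (F k) (ψ k) * Mp u μ (F k) (φ k)

variable {y u : ℝ}

/-- **The first derivative of the two-level functional.** -/
theorem Fam2.dPh (h : Fam2 U a β b F F1 F2) (hU : IsOpen U) (ha : 0 ≤ a) (hβ : EM ν β)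
    (hb : EM μ b) (hy : y ≠ 0) (hu : u ≠ 0) (ht : t ∈ U) :
    HasDerivAt (Ph y u ν μ F) (M2 y u ν μ (F t) (F1 t)) t := by
  obtain ⟨C, hC, hc⟩ := Fam2.outer (Κ := Κ) μ hb hu
  have h1 := hc U a β F F1 F2 ha hβ.nn hU h
  exact h1.dG (hβ.const_mul hC) hU ht hy

/-- **The second derivative of the two-level functional.** -/
theorem Fam2.dPh1 (h : Fam2 U a β b F F1 F2) (hU : IsOpen U) (ha : 0 ≤ a) (hβ : EM ν β)
    (hb : EM μ b) (hu : u ≠ 0) (ht : t ∈ U) :
    HasDerivAt (fun s => M2 y u ν μ (F s) (F1 s))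
      (M2 y u ν μ (F t) (fun k w => F2 t k w + u * F1 t k w ^ 2) -
        (u - y) * M22 y u ν μ (F t) (F1 t) (F1 t) - y * M2 y u ν μ (F t) (F1 t) ^ 2) t := by
  obtain ⟨C, hC, hc⟩ := Fam2.outer (Κ := Κ) μ hb hu
  have h1 := hc U a β F F1 F2 ha hβ.nn hU h
  have hβ' := hβ.const_mul hC
  have ha' : 0 ≤ C * (1 + a) := by positivity
  have h2 := h1.dG1 (p := y) ha' hβ' hU ht
  refine h2.congr_deriv ?_
  have e1 : ∫ k, Real.exp (y * G0 u μ F t k) * (G2 u μ F F1 F2 t k + y * G1 u μ F F1 t k ^ 2) ∂ν =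
      ∫ k, Real.exp (y * Gp u μ (F t k)) *
        Mp u μ (F t k) (fun w => F2 t k w + u * F1 t k w ^ 2) ∂ν -
      (u - y) * ∫ k, Real.exp (y * Gp u μ (F t k)) *
        (Mp u μ (F t k) (F1 t k) * Mp u μ (F t k) (F1 t k)) ∂ν := by
    have i2 := h1.int2 ha' hβ' ht y
    -- integrability of the square term
    have i3 : Integrable (fun k => Real.exp (y * G0 u μ F t k) *
        (G1 u μ F F1 t k * G1 u μ F F1 t k)) ν := by
      refine (hβ'.int' (|y| + 2) (C * (1 + a))).mono'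
        ((((h1.m0 t).const_mul y).exp.mul ((h1.m1 t).mul (h1.m1 t))).aestronglyMeasurable)
        (Eventually.of_forall fun k => ?_)
      rw [norm_mul, Real.norm_of_nonneg (Real.exp_pos _).le, Real.norm_eq_abs, abs_mul]
      have g1 := h1.b1 t ht k
      calc Real.exp (y * G0 u μ F t k) * (|G1 u μ F F1 t k| * |G1 u μ F F1 t k|) ≤
            Real.exp (|y| * (C * (1 + a) + C * β k)) *
              (Real.exp (C * (1 + a) + C * β k) * Real.exp (C * (1 + a) + C * β k)) :=
            mul_le_mul (h1.exp_le ht y k) (mul_le_mul g1 g1 (abs_nonneg _) (Real.exp_pos _).le)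
              (by positivity) (Real.exp_pos _).le
        _ = _ := by
            rw [← Real.exp_add, ← Real.exp_add]
            congr 1
            ring
    have i4 : Integrable (fun k => (u - y) * (Real.exp (y * G0 u μ F t k) *
        (G1 u μ F F1 t k * G1 u μ F F1 t k))) ν := i3.const_mul _
    have e2 : ∫ k, Real.exp (y * Gp u μ (F t k)) *
        Mp u μ (F t k) (fun w => F2 t k w + u * F1 t k w ^ 2) ∂ν =
        ∫ k, (Real.exp (y * G0 u μ F t k) *
          (G2 u μ F F1 F2 t k + y * G1 u μ F F1 t k ^ 2)) + (u - y) *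
          (Real.exp (y * G0 u μ F t k) * (G1 u μ F F1 t k * G1 u μ F F1 t k)) ∂ν := by
      refine integral_congr_ae (Eventually.of_forall fun k => ?_)
      simp only [G0, G1, G2]
      ring
    rw [e2, integral_add i2 i4, integral_const_mul]
    simp only [G0, G1]
    ring
  have e3 : Mp y ν (G0 u μ F t) (fun k => G2 u μ F F1 F2 t k + y * G1 u μ F F1 t k ^ 2) =
      M2 y u ν μ (F t) (fun k w => F2 t k w + u * F1 t k w ^ 2) -
        (u - y) * M22 y u ν μ (F t) (F1 t) (F1 t) := by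
    unfold M2 M22
    rw [Mp_apply y ν, Mp_apply y ν, Mp_apply y ν, e1, sub_div, mul_div_assoc]
    rfl
  rw [e3]
  rfl

end two

/-! ### logarithms of exponential sums -/

section lse

variable {S : Type*} [Fintype S]

/-- the exponential sum -/
noncomputable def Zs (H L : S → ℝ) (t : ℝ) : ℝ := ∑ s, Real.exp (H s + t * L s)

/-- the Gibbs mean -/
noncomputable def Gb (H L : S → ℝ) (t : ℝ) (ψ : S → ℝ) : ℝ :=
  (∑ s, Real.exp (H s + t * L s) * ψ s) / Zs H L t

lemma Zs_pos [Nonempty S] (H L : S → ℝ) (t : ℝ) : 0 < Zs H L t :=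
  Finset.sum_pos (fun _ _ => Real.exp_pos _) Finset.univ_nonempty

lemma hasDerivAt_wt (H L : S → ℝ) (ψ : S → ℝ) (t : ℝ) :
    HasDerivAt (fun r => ∑ s, Real.exp (H s + r * L s) * ψ s)
      (∑ s, Real.exp (H s + t * L s) * (L s * ψ s)) t := by
  refine HasDerivAt.fun_sum fun s _ => ?_
  have h1 : HasDerivAt (fun r : ℝ => H s + r * L s) (L s) t := by
    have := ((hasDerivAt_id t).mul_const (L s)).const_add (H s)
    simpa using this
  exact ((h1.exp).mul_const (ψ s)).congr_deriv (by ring)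

lemma hasDerivAt_Zs (H L : S → ℝ) (t : ℝ) :
    HasDerivAt (Zs H L) (∑ s, Real.exp (H s + t * L s) * L s) t := by
  have h := hasDerivAt_wt H L (fun _ => 1) t
  simp only [mul_one] at h
  exact h

lemma hasDerivAt_logZs [Nonempty S] (H L : S → ℝ) (t : ℝ) :
    HasDerivAt (fun r => Real.log (Zs H L r)) (Gb H L t L) t :=
  (hasDerivAt_Zs H L t).log (Zs_pos H L t).ne'

lemma hasDerivAt_Gb [Nonempty S] (H L : S → ℝ) (ψ : S → ℝ) (t : ℝ) :
    HasDerivAt (fun r => Gb H L r ψ)
      (Gb H L t (fun s => L s * ψ s) - Gb H L t L * Gb H L t ψ) t := by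
  have h := (hasDerivAt_wt H L ψ t).div (hasDerivAt_Zs H L t) (Zs_pos H L t).ne'
  refine h.congr_deriv ?_
  unfold Gb
  have := (Zs_pos H L t).ne'
  field_simp

lemma abs_Gb_le [Nonempty S] (H L : S → ℝ) (t : ℝ) {ψ : S → ℝ} {r : ℝ}
    (h : ∀ s, |ψ s| ≤ r) : |Gb H L t ψ| ≤ r := by
  unfold Gb
  rw [abs_div, abs_of_pos (Zs_pos H L t), div_le_iff₀ (Zs_pos H L t)]
  refine (Finset.abs_sum_le_sum_abs _ _).trans ?_
  unfold Zs
  rw [Finset.mul_sum]
  refine Finset.sum_le_sum fun s _ => ?_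
  rw [abs_mul, abs_of_pos (Real.exp_pos _), mul_comm r]
  exact mul_le_mul_of_nonneg_left (h s) (Real.exp_pos _).le

lemma abs_log_Zs_le [Nonempty S] (H L : S → ℝ) (t : ℝ) {q : ℝ} (h : ∀ s, |H s + t * L s| ≤ q) :
    |Real.log (Zs H L t)| ≤ Real.log (Fintype.card S) + q := by
  have hc : (1 : ℝ) ≤ Fintype.card S := by exact_mod_cast Fintype.card_pos
  have hl : 0 ≤ Real.log (Fintype.card S) := Real.log_nonneg hc
  have h1 : Zs H L t ≤ Fintype.card S * Real.exp q := by
    unfold Zs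
    calc ∑ s, Real.exp (H s + t * L s) ≤ ∑ _s : S, Real.exp q :=
          Finset.sum_le_sum fun s _ => Real.exp_le_exp.2 (abs_le.1 (h s)).2
      _ = _ := by simp [Finset.sum_const, nsmul_eq_mul]
  have h2 : Real.exp (-q) ≤ Zs H L t := by
    obtain ⟨s⟩ := ‹Nonempty S›
    calc Real.exp (-q) ≤ Real.exp (H s + t * L s) := Real.exp_le_exp.2 (abs_le.1 (h s)).1
      _ ≤ Zs H L t := Finset.single_le_sum (f := fun s => Real.exp (H s + t * L s))
          (fun _ _ => (Real.exp_pos _).le) (Finset.mem_univ s)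
  rw [abs_le]
  constructor
  · have := Real.log_le_log (Real.exp_pos _) h2
    rw [Real.log_exp] at this
    linarith
  · have := Real.log_le_log (Zs_pos H L t) h1
    rw [Real.log_mul (by positivity) (Real.exp_pos _).ne', Real.log_exp] at this
    exact this

variable {H L : S → Κ → Ω → ℝ} {β : Κ → ℝ} {b : Ω → ℝ} {A R : ℝ}

lemma meas_wt (hH : ∀ s, Measurable fun q : Κ × Ω => H s q.1 q.2)
    (hL : ∀ s, Measurable fun q : Κ × Ω => L s q.1 q.2) {ψ : S → Κ → Ω → ℝ}
    (hψ : ∀ s, Measurable fun q : Κ × Ω => ψ s q.1 q.2) (t : ℝ) :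
    Measurable fun q : Κ × Ω => ∑ s, Real.exp (H s q.1 q.2 + t * L s q.1 q.2) * ψ s q.1 q.2 :=
  Finset.measurable_sum _ fun s _ => ((hH s).add ((hL s).const_mul t)).exp.mul (hψ s)

lemma meas_Zs (hH : ∀ s, Measurable fun q : Κ × Ω => H s q.1 q.2)
    (hL : ∀ s, Measurable fun q : Κ × Ω => L s q.1 q.2) (t : ℝ) :
    Measurable fun q : Κ × Ω => Zs (fun s => H s q.1 q.2) (fun s => L s q.1 q.2) t :=
  Finset.measurable_sum _ fun s _ => ((hH s).add ((hL s).const_mul t)).exp

lemma meas_Gb (hH : ∀ s, Measurable fun q : Κ × Ω => H s q.1 q.2)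
    (hL : ∀ s, Measurable fun q : Κ × Ω => L s q.1 q.2) {ψ : S → Κ → Ω → ℝ}
    (hψ : ∀ s, Measurable fun q : Κ × Ω => ψ s q.1 q.2) (t : ℝ) :
    Measurable fun q : Κ × Ω => Gb (fun s => H s q.1 q.2) (fun s => L s q.1 q.2) t
      fun s => ψ s q.1 q.2 :=
  (meas_wt hH hL hψ t).div (meas_Zs hH hL t)

/-- the free energy with the amplitude `t` of the statistic `L` -/
noncomputable def FL (H L : S → Κ → Ω → ℝ) (t : ℝ) (k : Κ) (w : Ω) : ℝ :=
  Real.log (Zs (fun s => H s k w) (fun s => L s k w) t)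

/-- the Gibbs mean of `ψ` -/
noncomputable def Gm (H L ψ : S → Κ → Ω → ℝ) (t : ℝ) (k : Κ) (w : Ω) : ℝ :=
  Gb (fun s => H s k w) (fun s => L s k w) t fun s => ψ s k w

/-- **The free energy is a family with exponential bounds.** -/
theorem fam_lse [Nonempty S] (hH : ∀ s, Measurable fun q : Κ × Ω => H s q.1 q.2)
    (hL : ∀ s, Measurable fun q : Κ × Ω => L s q.1 q.2) (hβ : ∀ k, 0 ≤ β k) (hb : ∀ w, 0 ≤ b w)
    (hR : 0 ≤ R) (bH : ∀ s k w, |H s k w| ≤ A + β k + b w)
    (bL : ∀ s k w, |L s k w| ≤ β k + b w) (hA : 0 ≤ A) :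
    Fam2 (Set.Ioo (-R) R) (Real.log (Fintype.card S) + A) (fun k => (2 + R) * β k)
      (fun w => (2 + R) * b w) (FL H L) (Gm H L L)
      (fun t k w => Gm H L (fun s k w => L s k w ^ 2) t k w - Gm H L L t k w ^ 2) := by
  have hc : (1 : ℝ) ≤ Fintype.card S := by exact_mod_cast Fintype.card_pos
  have hl : 0 ≤ Real.log (Fintype.card S) := Real.log_nonneg hc
  have hq : ∀ k w, 0 ≤ β k + b w := fun k w => add_nonneg (hβ k) (hb w)
  have e1 : ∀ k w, Real.exp (Real.log (Fintype.card S) + A + (2 + R) * β k + (2 + R) * b w) =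
      Real.exp (Real.log (Fintype.card S) + A + (2 + R) * (β k + b w)) := fun k w => by
    congr 1
    ring
  exact
    { m0 := fun t => Real.measurable_log.comp (meas_Zs hH hL t)
      m1 := fun t => meas_Gb hH hL hL t
      m2 := fun t => (meas_Gb hH hL (ψ := fun s k w => L s k w ^ 2)
        (fun s => (hL s).pow_const 2) t).sub ((meas_Gb hH hL hL t).pow_const 2)
      d1 := fun t _ k w => hasDerivAt_logZs _ _ t
      d2 := fun t _ k w => by
        refine (hasDerivAt_Gb _ _ (fun s => L s k w) t).congr_deriv ?_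
        simp only [Gm, pow_two]
      b0 := fun t ht k w => by
        refine (abs_log_Zs_le _ _ t (q := A + (1 + R) * (β k + b w)) fun s => ?_).trans ?_
        · have h1 : |t| ≤ R := abs_le.2 ⟨ht.1.le, ht.2.le⟩
          calc |H s k w + t * L s k w| ≤ |H s k w| + |t| * |L s k w| := by
                rw [← abs_mul]
                exact abs_add_le _ _
            _ ≤ (A + β k + b w) + R * (β k + b w) :=
                add_le_add (bH s k w) (mul_le_mul h1 (bL s k w) (abs_nonneg _) hR)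
            _ = _ := by ring
        · nlinarith [hq k w]
      b1 := fun t ht k w => by
        refine (abs_Gb_le _ _ t (bL · k w)).trans ?_
        rw [e1]
        have h1 := Real.add_one_le_exp (Real.log (Fintype.card S) + A + (2 + R) * (β k + b w))
        nlinarith [hq k w, mul_nonneg hR (hq k w)]
      b2 := fun t ht k w => by
        have g1 := abs_Gb_le (fun s => H s k w) (fun s => L s k w) t (bL · k w)
        have g2 : |Gm H L (fun s k w => L s k w ^ 2) t k w| ≤ (β k + b w) ^ 2 :=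
          abs_Gb_le _ _ t fun s => by
            rw [abs_pow]
            exact pow_le_pow_left₀ (abs_nonneg _) (bL s k w) 2
        have g3 : 0 ≤ Gm H L (fun s k w => L s k w ^ 2) t k w :=
          div_nonneg (Finset.sum_nonneg fun s _ => mul_nonneg (Real.exp_pos _).le (sq_nonneg _))
            (Zs_pos _ _ t).le
        have g4 : Gm H L L t k w ^ 2 ≤ (β k + b w) ^ 2 := by
          rw [← sq_abs]
          exact pow_le_pow_left₀ (abs_nonneg _) g1 2
        have g5 : |Gm H L (fun s k w => L s k w ^ 2) t k w - Gm H L L t k w ^ 2| ≤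
            (β k + b w) ^ 2 := by
          rw [abs_le]
          rw [abs_of_nonneg g3] at g2
          constructor
          · nlinarith
          · nlinarith [sq_nonneg (Gm H L L t k w)]
        refine g5.trans ?_
        rw [e1]
        calc (β k + b w) ^ 2 ≤ Real.exp (β k + b w) ^ 2 := by
              refine pow_le_pow_left₀ (hq k w) ?_ 2
              have := Real.add_one_le_exp (β k + b w)
              linarith
          _ = Real.exp (2 * (β k + b w)) := by
              rw [← Real.exp_nat_mul]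
              norm_num
          _ ≤ _ := Real.exp_le_exp.2 (by nlinarith [hq k w, mul_nonneg hR (hq k w)]) }

variable {μ : Measure Ω} [IsProbabilityMeasure μ] {ν : Measure Κ} [IsProbabilityMeasure ν]
  {y u t : ℝ}

/-- **First derivative of `(1/y) log ∫ (∫ Z ^ u) ^ (y/u)` in the amplitude.** -/
theorem lse_dPh [Nonempty S] (hH : ∀ s, Measurable fun q : Κ × Ω => H s q.1 q.2)
    (hL : ∀ s, Measurable fun q : Κ × Ω => L s q.1 q.2) (hβ : EM ν β) (hb : EM μ b)
    (bH : ∀ s k w, |H s k w| ≤ A + β k + b w) (bL : ∀ s k w, |L s k w| ≤ β k + b w)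
    (hA : 0 ≤ A) (hy : y ≠ 0) (hu : u ≠ 0) :
    HasDerivAt (Ph y u ν μ (FL H L)) (M2 y u ν μ (FL H L t) (Gm H L L t)) t := by
  have hc : (1 : ℝ) ≤ Fintype.card S := by exact_mod_cast Fintype.card_pos
  have hl : 0 ≤ Real.log (Fintype.card S) := Real.log_nonneg hc
  have hR : (0 : ℝ) ≤ |t| + 1 := by positivity
  have h := fam_lse hH hL hβ.nn hb.nn hR bH bL hA
  exact h.dPh isOpen_Ioo (by linarith) (hβ.const_mul (by positivity))
    (hb.const_mul (by positivity)) hy hu ⟨by linarith [neg_abs_le t], by linarith [le_abs_self t]⟩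

/-- **Second derivative**: `E L₁² - (1 - u) E L₁ L₂ - (u - y) E L₁ L₃' - y (E L₁)²`, where `2` is
in the same leaf as `1` and `3'` in another one. -/
theorem lse_dPh1 [Nonempty S] (hH : ∀ s, Measurable fun q : Κ × Ω => H s q.1 q.2)
    (hL : ∀ s, Measurable fun q : Κ × Ω => L s q.1 q.2) (hβ : EM ν β) (hb : EM μ b)
    (bH : ∀ s k w, |H s k w| ≤ A + β k + b w) (bL : ∀ s k w, |L s k w| ≤ β k + b w)
    (hA : 0 ≤ A) (hu : u ≠ 0) :
    HasDerivAt (fun r => M2 y u ν μ (FL H L r) (Gm H L L r))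
      (M2 y u ν μ (FL H L t) (fun k w => Gm H L (fun s k w => L s k w ^ 2) t k w -
          (1 - u) * Gm H L L t k w ^ 2) -
        (u - y) * M22 y u ν μ (FL H L t) (Gm H L L t) (Gm H L L t) -
        y * M2 y u ν μ (FL H L t) (Gm H L L t) ^ 2) t := by
  have hc : (1 : ℝ) ≤ Fintype.card S := by exact_mod_cast Fintype.card_pos
  have hl : 0 ≤ Real.log (Fintype.card S) := Real.log_nonneg hc
  have hR : (0 : ℝ) ≤ |t| + 1 := by positivity
  have h := fam_lse hH hL hβ.nn hb.nn hR bH bL hA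
  refine (h.dPh1 isOpen_Ioo (by linarith) (hβ.const_mul (by positivity))
    (hb.const_mul (by positivity)) hu
    ⟨by linarith [neg_abs_le t], by linarith [le_abs_self t]⟩).congr_deriv ?_
  have e : (fun k w => Gm H L (fun s k w => L s k w ^ 2) t k w - Gm H L L t k w ^ 2 +
      u * Gm H L L t k w ^ 2) = fun k w => Gm H L (fun s k w => L s k w ^ 2) t k w -
          (1 - u) * Gm H L L t k w ^ 2 := by
    funext k w
    ring
  rw [e]

end lse

end Vale.Agent.P146.H622
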